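import Vale.Agent.P036.Energy
import Vale.Agent.P036.ApproxEnergy

open Finset
open scoped Pointwise

namespace Vale.Agent.Results.P036.EnergyTriangles

theorem result :
    (∀ P : Finset (ℝ × ℝ), (∀ p ∈ P, p.1 ∈ Set.Icc (0:ℝ) 1 ∧ p.2 ∈ Set.Icc (0:ℝ) 1) → 3 ≤ P.card →
      ∃ p ∈ P, ∃ q ∈ P, ∃ r ∈ P, p ≠ q ∧ p ≠ r ∧ q ≠ r ∧
        |(q.1 - p.1) * (r.2 - p.2) - (q.2 - p.2) * (r.1 - p.1)| / 2 ≤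
          100 * ((P.card : ℝ) ^ 2 / P.addEnergy P) * Real.sqrt ((P.card : ℝ) ^ 2 / P.addEnergy P)) ∧
    (∀ (P : Finset (ℝ × ℝ)) (η : ℝ), (∀ p ∈ P, p.1 ∈ Set.Icc (0:ℝ) 1 ∧ p.2 ∈ Set.Icc (0:ℝ) 1) → 3 ≤ P.card → 0 < η →
      ∀ ρ : ℝ, ρ = (P.card : ℝ) ^ 2 / (((P ×ˢ P) ×ˢ (P ×ˢ P)).filter fun z =>
        |z.1.1.1 + z.1.2.1 - z.2.1.1 - z.2.2.1| ≤ η ∧ |z.1.1.2 + z.1.2.2 - z.2.1.2 - z.2.2.2| ≤ η).card →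
      η ≤ Real.sqrt ρ →
      ∃ p ∈ P, ∃ q ∈ P, ∃ r ∈ P, p ≠ q ∧ p ≠ r ∧ q ≠ r ∧
        |(q.1 - p.1) * (r.2 - p.2) - (q.2 - p.2) * (r.1 - p.1)| / 2 ≤
          60000 * (ρ * Real.sqrt ρ + Real.sqrt (η * (ρ * Real.sqrt ρ)))) ∧
    (∀ (P : Finset (ℝ × ℝ)) (K : ℝ), (∀ p ∈ P, p.1 ∈ Set.Icc (0:ℝ) 1 ∧ p.2 ∈ Set.Icc (0:ℝ) 1) → 3 ≤ P.card →
      ((P + P).card : ℝ) ≤ K * P.card →
      ∃ p ∈ P, ∃ q ∈ P, ∃ r ∈ P, p ≠ q ∧ p ≠ r ∧ q ≠ r ∧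
        |(q.1 - p.1) * (r.2 - p.2) - (q.2 - p.2) * (r.1 - p.1)| / 2 ≤
          100 * (K / P.card) * Real.sqrt (K / P.card)) :=
  ⟨Vale.Agent.P036.small_triangle_energy, Vale.Agent.P036.small_triangle_energy_near,
    Vale.Agent.P036.small_triangle_doubling⟩

end Vale.Agent.Results.P036.EnergyTriangles
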